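import Vale.Agent.Lib.P160.Sparse4

namespace Vale.Agent.Lib.P160

/-- The absolute constant of the logarithmic regime. -/
noncomputable def constL : ℝ := (64 / 3 : ℝ) ^ (2 ^ 41)

theorem one_le_constL : (1 : ℝ) ≤ constL := by
  unfold constL
  exact one_le_pow₀ (by norm_num)

/-- `Lr s ^ 2 * s ≤ 1`. -/
theorem Lr_sq_mul_le (s : ℕ) : Lr s ^ 2 * (s : ℝ) ≤ 1 := by
  have h1 := Lr_even_sq (s / 2)
  have h2 : Lr s ≤ Lr (2 * (s / 2)) := Lr_antitone (by omega)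
  have h3 : (s : ℝ) ≤ 2 * ((s / 2 : ℕ) : ℝ) + 1 := by
    have : s ≤ 2 * (s / 2) + 1 := by omega
    exact_mod_cast this
  have h4 : Lr s ^ 2 ≤ Lr (2 * (s / 2)) ^ 2 := pow_le_pow_left₀ (Lr_pos s).le h2 2
  have h5 : (0 : ℝ) ≤ (s : ℝ) := Nat.cast_nonneg s
  have h6 : (0 : ℝ) ≤ Lr (2 * (s / 2)) ^ 2 := by positivity
  calc Lr s ^ 2 * (s : ℝ) ≤ Lr (2 * (s / 2)) ^ 2 * (s : ℝ) :=
        mul_le_mul_of_nonneg_right h4 h5
    _ ≤ Lr (2 * (s / 2)) ^ 2 * (2 * ((s / 2 : ℕ) : ℝ) + 1) :=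
        mul_le_mul_of_nonneg_left h3 h6
    _ ≤ 1 := h1

/-- `(logb 2 n) ^ 2 ≤ 16 n` for `n ≥ 1`. -/
theorem logb_sq_le {n : ℕ} (hn : 1 ≤ n) : Real.logb 2 (n : ℝ) ^ 2 ≤ 16 * (n : ℝ) := by
  have hn1 : (1 : ℝ) ≤ (n : ℝ) := by exact_mod_cast hn
  have hn0 : (0 : ℝ) ≤ (n : ℝ) := by linarith
  have hsq : (0 : ℝ) < Real.sqrt (n : ℝ) := Real.sqrt_pos.mpr (by linarith)
  have h1 : Real.log (Real.sqrt (n : ℝ)) ≤ Real.sqrt (n : ℝ) - 1 :=
    Real.log_le_sub_one_of_pos hsq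
  have h2 : Real.log (Real.sqrt (n : ℝ)) = Real.log (n : ℝ) / 2 := Real.log_sqrt hn0
  have h3 : Real.log (n : ℝ) ≤ 2 * Real.sqrt (n : ℝ) := by
    rw [h2] at h1
    linarith
  have h4 : (0 : ℝ) ≤ Real.log (n : ℝ) := Real.log_nonneg hn1
  have h5 : (1 / 2 : ℝ) ≤ Real.log 2 := by
    have := Real.log_two_gt_d9
    linarith
  have h6 : Real.logb 2 (n : ℝ) ≤ 4 * Real.sqrt (n : ℝ) := by
    unfold Real.logb
    rw [div_le_iff₀ (by linarith)]
    nlinarith
  have h7 : (0 : ℝ) ≤ Real.logb 2 (n : ℝ) := Real.logb_nonneg (by norm_num) hn1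
  have h8 : Real.sqrt (n : ℝ) ^ 2 = (n : ℝ) := Real.sq_sqrt hn0
  nlinarith

theorem log_term_bound {n s r f : ℕ} (h3 : 3 ≤ s)
    (hk : 40 * (n : ℝ) ≤ ((n - s : ℕ) : ℝ) * Real.logb 2 n)
    (hr : r + 1 ≤ s) (hf : f + s + r = n) :
    min (Lr s ^ f) (Lr s ^ f * 2 ^ s / 2 ^ (Nat.choose (r + 1) 2)) ≤
      constL * (3 / 8) ^ n * ((1 / 8) ^ s * (1 / 8) ^ r) := by
  have hA1 : (1 : ℝ) ≤ constL := one_le_constL
  rw [← pow_add]
  have hsn : s ≤ n := by omega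
  have hsrn : s + r ≤ n := by omega
  have hn1 : 1 ≤ n := by omega
  have hnpos : (0 : ℝ) < (n : ℝ) := by exact_mod_cast hn1
  have hkfr : n - s = f + r := by omega
  have hL0 : (0 : ℝ) ≤ Real.logb 2 (n : ℝ) :=
    Real.logb_nonneg (by norm_num) (by exact_mod_cast hn1)
  have hk0 : (0 : ℝ) ≤ ((n - s : ℕ) : ℝ) := Nat.cast_nonneg _
  rcases le_or_gt s (2 ^ 40) with hs | hs
  · refine (min_le_left _ _).trans ?_
    have hpow : Lr s ^ f ≤ (3 / 8 : ℝ) ^ f :=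
      pow_le_pow_left₀ (Lr_pos s).le (Lr_le_of_three_le h3) _
    have hn : (3 / 8 : ℝ) ^ n = (3 / 8) ^ f * (3 / 8) ^ (s + r) := by
      rw [← pow_add]; congr 1; omega
    have hx : (3 / 8 : ℝ) ^ (s + r) * (1 / 8) ^ (s + r) = 1 / (64 / 3) ^ (s + r) := by
      rw [← mul_pow, ← _root_.one_div_pow]
      congr 1
      norm_num
    have hsr : s + r ≤ 2 ^ 41 := by
      have e : (2 : ℕ) ^ 41 = 2 * 2 ^ 40 := by norm_num
      rw [e]
      omega
    have hle : (64 / 3 : ℝ) ^ (s + r) ≤ constL := by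
      unfold constL
      exact pow_le_pow_right₀ (by norm_num) hsr
    have hpos : (0 : ℝ) < (64 / 3) ^ (s + r) := by positivity
    have h1 : (1 : ℝ) ≤ constL * (1 / (64 / 3) ^ (s + r)) := by
      rw [mul_one_div, le_div_iff₀ hpos, one_mul]
      exact hle
    calc Lr s ^ f ≤ (3 / 8 : ℝ) ^ f := hpow
      _ = (3 / 8 : ℝ) ^ f * 1 := (mul_one _).symm
      _ ≤ (3 / 8 : ℝ) ^ f * (constL * (1 / (64 / 3) ^ (s + r))) :=
          mul_le_mul_of_nonneg_left h1 (by positivity)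
      _ = constL * (3 / 8) ^ n * (1 / 8) ^ (s + r) := by
          rw [hn, ← hx]; ring
  · rcases le_or_gt f r with hfr | hfr
    · refine (min_le_right _ _).trans ?_
      have hLsq := logb_sq_le hn1
      have hsq : (40 * (n : ℝ)) ^ 2 ≤
          (((n - s : ℕ) : ℝ) * Real.logb 2 (n : ℝ)) ^ 2 :=
        pow_le_pow_left₀ (by positivity) hk 2
      have hk2 : 100 * (n : ℝ) ≤ ((n - s : ℕ) : ℝ) ^ 2 := by
        have e1 : (((n - s : ℕ) : ℝ) * Real.logb 2 (n : ℝ)) ^ 2 ≤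
            ((n - s : ℕ) : ℝ) ^ 2 * (16 * (n : ℝ)) := by
          rw [mul_pow]
          exact mul_le_mul_of_nonneg_left hLsq (by positivity)
        have e2 : (n : ℝ) * (100 * (n : ℝ)) ≤ (n : ℝ) * ((n - s : ℕ) : ℝ) ^ 2 := by
          nlinarith
        exact le_of_mul_le_mul_left e2 hnpos
      have hk2n : 100 * n ≤ (n - s) ^ 2 := by exact_mod_cast hk2
      have hr2 : 25 * n ≤ r ^ 2 := by
        rw [hkfr] at hk2n
        have : f + r ≤ 2 * r := by omega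
        have h4 : (f + r) ^ 2 ≤ (2 * r) ^ 2 := Nat.pow_le_pow_left this 2
        nlinarith
      have hch : 6 * n ≤ Nat.choose (r + 1) 2 := by
        rw [Nat.choose_two_right, Nat.le_div_iff_mul_le (by norm_num)]
        simp only [Nat.add_sub_cancel]
        nlinarith
      have hkey : (2 : ℝ) ^ (6 * n) ≤ constL * 2 ^ (Nat.choose (r + 1) 2) := by
        calc (2 : ℝ) ^ (6 * n) ≤ 2 ^ (Nat.choose (r + 1) 2) :=
              pow_le_pow_right₀ (by norm_num) hch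
          _ = 1 * 2 ^ (Nat.choose (r + 1) 2) := (one_mul _).symm
          _ ≤ constL * 2 ^ (Nat.choose (r + 1) 2) :=
              mul_le_mul_of_nonneg_right hA1 (by positivity)
      have hLr1 : Lr s ≤ 1 := (Lr_le_of_three_le h3).trans (by norm_num)
      have hpow1 : Lr s ^ f ≤ 1 := pow_le_one₀ (Lr_pos s).le hLr1
      have hC : (0 : ℝ) < 2 ^ (Nat.choose (r + 1) 2) := by positivity
      have ha : (3 / 8 : ℝ) ^ n * (8 / 3) ^ n = 1 := by
        rw [← mul_pow]; norm_num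
      have hb : (1 / 8 : ℝ) ^ (s + r) * 8 ^ (s + r) = 1 := by
        rw [← mul_pow]; norm_num
      have h2s : (2 : ℝ) ^ s ≤ 2 ^ n := pow_le_pow_right₀ (by norm_num) hsn
      have h83 : (8 / 3 : ℝ) ^ n ≤ 2 ^ (2 * n) := by
        rw [pow_mul]
        exact pow_le_pow_left₀ (by norm_num) (by norm_num) n
      have h8 : (8 : ℝ) ^ (s + r) ≤ 2 ^ (3 * n) := by
        calc (8 : ℝ) ^ (s + r) ≤ 8 ^ n := pow_le_pow_right₀ (by norm_num) hsrn
          _ = 2 ^ (3 * n) := by rw [pow_mul]; norm_num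
      have hsmall : (2 : ℝ) ^ s * (8 / 3) ^ n * 8 ^ (s + r) ≤ 2 ^ (6 * n) := by
        have e : (2 : ℝ) ^ (6 * n) = 2 ^ n * 2 ^ (2 * n) * 2 ^ (3 * n) := by
          rw [← pow_add, ← pow_add]; congr 1; ring
        rw [e]
        exact mul_le_mul (mul_le_mul h2s h83 (by positivity) (by positivity)) h8
          (by positivity) (by positivity)
      have hab : (0 : ℝ) ≤ (3 / 8 : ℝ) ^ n * (1 / 8) ^ (s + r) := by positivity
      have hfin : (2 : ℝ) ^ s ≤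
          constL * (3 / 8) ^ n * (1 / 8) ^ (s + r) * 2 ^ (Nat.choose (r + 1) 2) := by
        have e : (2 : ℝ) ^ s =
            ((2 : ℝ) ^ s * (8 / 3) ^ n * 8 ^ (s + r)) * ((3 / 8 : ℝ) ^ n * (1 / 8) ^ (s + r)) := by
          have e' : ((2 : ℝ) ^ s * (8 / 3) ^ n * 8 ^ (s + r)) *
              ((3 / 8 : ℝ) ^ n * (1 / 8) ^ (s + r)) =
              2 ^ s * ((3 / 8 : ℝ) ^ n * (8 / 3) ^ n) * ((1 / 8 : ℝ) ^ (s + r) * 8 ^ (s + r)) := by
            ring
          rw [e', ha, hb]; ring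
        calc (2 : ℝ) ^ s =
            ((2 : ℝ) ^ s * (8 / 3) ^ n * 8 ^ (s + r)) * ((3 / 8 : ℝ) ^ n * (1 / 8) ^ (s + r)) := e
          _ ≤ 2 ^ (6 * n) * ((3 / 8 : ℝ) ^ n * (1 / 8) ^ (s + r)) :=
              mul_le_mul_of_nonneg_right hsmall hab
          _ ≤ (constL * 2 ^ (Nat.choose (r + 1) 2)) * ((3 / 8 : ℝ) ^ n * (1 / 8) ^ (s + r)) :=
              mul_le_mul_of_nonneg_right hkey hab
          _ = constL * (3 / 8) ^ n * (1 / 8) ^ (s + r) * 2 ^ (Nat.choose (r + 1) 2) := by ring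
      calc Lr s ^ f * 2 ^ s / 2 ^ (Nat.choose (r + 1) 2)
          ≤ 1 * 2 ^ s / 2 ^ (Nat.choose (r + 1) 2) :=
            div_le_div_of_nonneg_right (mul_le_mul_of_nonneg_right hpow1 (by positivity)) hC.le
        _ = 2 ^ s / 2 ^ (Nat.choose (r + 1) 2) := by rw [one_mul]
        _ ≤ constL * (3 / 8) ^ n * (1 / 8) ^ (s + r) := by
            rw [div_le_iff₀ hC]; exact hfin
    · refine (min_le_left _ _).trans ?_
      have hs1 : 1 ≤ s := by omega
      have hspos : (0 : ℝ) < (s : ℝ) := by exact_mod_cast hs1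
      have hs1r : (1 : ℝ) ≤ (s : ℝ) := by exact_mod_cast hs1
      have hls0 : (0 : ℝ) ≤ Real.logb 2 (s : ℝ) := Real.logb_nonneg (by norm_num) hs1r
      -- the key logarithmic inequality
      have hfl : (10 : ℝ) * (n : ℝ) ≤ (f : ℝ) * Real.logb 2 (s : ℝ) := by
        rcases le_or_gt n (s * s) with hss | hss
        · have hle : Real.logb 2 (n : ℝ) ≤ Real.logb 2 ((s : ℝ) * (s : ℝ)) := by
            apply Real.logb_le_logb_of_le (by norm_num) hnpos
            exact_mod_cast hss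
          rw [Real.logb_mul hspos.ne' hspos.ne'] at hle
          have hfk : ((n - s : ℕ) : ℝ) ≤ 2 * (f : ℝ) := by
            have : n - s ≤ 2 * f := by omega
            exact_mod_cast this
          have hf0 : (0 : ℝ) ≤ (f : ℝ) := Nat.cast_nonneg f
          nlinarith
        · have h40 : (40 : ℝ) ≤ Real.logb 2 (s : ℝ) := by
            rw [Real.le_logb_iff_rpow_le (by norm_num) hspos]
            have e : (2 : ℝ) ^ (40 : ℝ) = ((2 ^ 40 : ℕ) : ℝ) := by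
              rw [show (40 : ℝ) = ((40 : ℕ) : ℝ) by norm_num, Real.rpow_natCast]
              norm_num
            rw [e]
            exact_mod_cast hs.le
          have h2s : 2 * s < n := by nlinarith
          have hnf : (n : ℝ) ≤ 4 * (f : ℝ) := by
            have : n ≤ 4 * f := by omega
            exact_mod_cast this
          have hf0 : (0 : ℝ) ≤ (f : ℝ) := Nat.cast_nonneg f
          nlinarith
      have hspow : (2 : ℝ) ^ (10 * n) ≤ (s : ℝ) ^ f := by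
        have e1 : (2 : ℝ) ^ (10 * n) = (2 : ℝ) ^ (((10 * n : ℕ)) : ℝ) :=
          (Real.rpow_natCast _ _).symm
        have e2 : (s : ℝ) ^ f = (2 : ℝ) ^ (Real.logb 2 (s : ℝ) * (f : ℝ)) := by
          rw [Real.rpow_mul (by norm_num), Real.rpow_logb (by norm_num) (by norm_num) hspos,
            Real.rpow_natCast]
        rw [e1, e2]
        apply Real.rpow_le_rpow_of_exponent_le (by norm_num)
        push_cast
        linarith
      have hsq1 : Lr s ^ 2 ≤ 1 / (s : ℝ) := by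
        rw [le_div_iff₀ hspos]
        exact Lr_sq_mul_le s
      have hsq2 : (Lr s ^ f) ^ 2 ≤ 1 / (s : ℝ) ^ f := by
        rw [← pow_mul, mul_comm f 2, pow_mul, ← _root_.one_div_pow]
        exact pow_le_pow_left₀ (by positivity) hsq1 f
      have hsq3 : (1 : ℝ) / (s : ℝ) ^ f ≤ 1 / (2 : ℝ) ^ (10 * n) :=
        one_div_le_one_div_of_le (by positivity) hspow
      have hsq4 : (1 : ℝ) / (2 : ℝ) ^ (10 * n) ≤ ((3 / 64 : ℝ) ^ n) ^ 2 := by
        rw [pow_mul, ← _root_.one_div_pow, ← pow_mul, mul_comm n 2, pow_mul]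
        exact pow_le_pow_left₀ (by norm_num) (by norm_num) n
      have hfinal : Lr s ^ f ≤ (3 / 64 : ℝ) ^ n := by
        have h0 : (0 : ℝ) ≤ Lr s ^ f := pow_nonneg (Lr_pos s).le f
        have h1 : (0 : ℝ) ≤ (3 / 64 : ℝ) ^ n := by positivity
        have h2 : (Lr s ^ f) ^ 2 ≤ ((3 / 64 : ℝ) ^ n) ^ 2 :=
          hsq2.trans (hsq3.trans hsq4)
        exact (pow_le_pow_iff_left₀ h0 h1 (by norm_num)).mp h2
      have h2 : (1 / 8 : ℝ) ^ n ≤ (1 / 8) ^ (s + r) :=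
        pow_le_pow_of_le_one (by norm_num) (by norm_num) hsrn
      have h3' : (3 / 64 : ℝ) ^ n = (3 / 8) ^ n * (1 / 8) ^ n := by
        rw [← mul_pow]; norm_num
      calc Lr s ^ f ≤ (3 / 64 : ℝ) ^ n := hfinal
        _ = (3 / 8) ^ n * (1 / 8) ^ n := h3'
        _ ≤ (3 / 8) ^ n * (1 / 8) ^ (s + r) := mul_le_mul_of_nonneg_left h2 (by positivity)
        _ = 1 * ((3 / 8) ^ n * (1 / 8) ^ (s + r)) := (one_mul _).symm
        _ ≤ constL * ((3 / 8) ^ n * (1 / 8) ^ (s + r)) :=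
            mul_le_mul_of_nonneg_right hA1 (by positivity)
        _ = constL * (3 / 8) ^ n * (1 / 8) ^ (s + r) := by ring

end Vale.Agent.Lib.P160
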