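import Mathlib
import Vale.Agent.Lib.P160.RV.Defs

/-!
# P160, piece SS-5 (pool job 303): from the subset-sum bound to the row bound (helper5)
-/

namespace Vale.Agent.Lib.P160.H5

open Vale.Agent.Lib.P160 Finset

/-- Fibre bound: if `D` coordinates `e i` of `w` have absolute values `a i` and every level set of
the subset sums of `a` has at most `B` elements, then every level set of the signed sums of `w`
has at most `2 ^ (card κ - D) * B` elements. -/
theorem ss_core {κ : Type} [Fintype κ] [DecidableEq κ] (w : κ → ℝ) (c : ℝ) (D : ℕ)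
    (a : Fin D → ℝ) (e : Fin D → κ) (he : Function.Injective e) (hw : ∀ i, w (e i) ≠ 0)
    (ha : ∀ i, |w (e i)| = a i) (B : ℝ)
    (hB : ∀ v : ℝ,
      (((univ : Finset (Finset (Fin D))).filter fun S => ∑ i ∈ S, a i = v).card : ℝ) ≤ B) :
    ((univ.filter fun x : κ → ℤˣ => sdot x w = c).card : ℝ) ≤ 2 ^ (Fintype.card κ - D) * B := by
  classical
  obtain ⟨J, hJ⟩ : ∃ J : Finset κ, J = univ.image e := ⟨_, rfl⟩
  have hJcard : J.card = D := by
    rw [hJ, Finset.card_image_of_injective _ he, Finset.card_univ, Fintype.card_fin]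
  have hJsum : ∀ f : κ → ℝ, ∑ j ∈ J, f j = ∑ i, f (e i) := by
    intro f
    rw [hJ, Finset.sum_image (fun i _ i' _ hii => he hii)]
  have hJmem : ∀ j, j ∈ J → ∃ i, e i = j := by
    intro j hj
    rw [hJ] at hj
    obtain ⟨i, _, hi⟩ := Finset.mem_image.mp hj
    exact ⟨i, hi⟩
  obtain ⟨Y, hY⟩ : ∃ Y : Finset (κ → ℤˣ),
      Y = Fintype.piFinset (fun j => if j ∈ J then ({1} : Finset ℤˣ) else univ) := ⟨_, rfl⟩
  have hYcard : Y.card = 2 ^ (Fintype.card κ - D) := by
    rw [hY, Fintype.card_piFinset]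
    have h1 : ∀ j : κ, (if j ∈ J then ({1} : Finset ℤˣ) else univ).card
        = if j ∈ J then 1 else 2 := by
      intro j
      split_ifs
      · exact Finset.card_singleton _
      · rw [Finset.card_univ, Fintype.card_units_int]
    simp only [h1]
    rw [Finset.prod_ite, Finset.prod_const_one, one_mul, Finset.prod_const]
    congr 1
    have h2 : (univ.filter fun j => j ∉ J) = Jᶜ := by
      ext j
      simp
    rw [h2, Finset.card_compl, hJcard]
  obtain ⟨g, hg⟩ : ∃ g : (κ → ℤˣ) → (κ → ℤˣ), g = fun x j => if j ∈ J then 1 else x j :=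
    ⟨_, rfl⟩
  have hgY : ∀ x, g x ∈ Y := by
    intro x
    rw [hY, Fintype.mem_piFinset]
    intro j
    rw [hg]
    by_cases hj : j ∈ J
    · simp only [if_pos hj]
      exact Finset.mem_singleton_self _
    · simp only [if_neg hj]
      exact Finset.mem_univ _
  have hgout : ∀ x j, j ∉ J → g x j = x j := by
    intro x j hj
    rw [hg]
    simp [hj]
  obtain ⟨S, hS⟩ : ∃ S : Finset (κ → ℤˣ), S = univ.filter fun x : κ → ℤˣ => sdot x w = c :=
    ⟨_, rfl⟩
  rw [← hS]
  have h1 : S.card = ∑ y ∈ Y, (S.filter fun x => g x = y).card :=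
    Finset.card_eq_sum_card_fiberwise (fun x _ => hgY x)
  have h2 : ∀ y ∈ Y, ((S.filter fun x => g x = y).card : ℝ) ≤ B := by
    intro y _
    obtain ⟨s, hs⟩ : ∃ s : ℝ, s = ∑ j ∈ Jᶜ, ((y j : ℤ) : ℝ) * w j := ⟨_, rfl⟩
    obtain ⟨v, hv⟩ : ∃ v : ℝ, v = (c - s + ∑ i, a i) / 2 := ⟨_, rfl⟩
    refine le_trans ?_ (hB v)
    have hle : (S.filter fun x => g x = y).card ≤
        ((univ : Finset (Finset (Fin D))).filter fun P => ∑ i ∈ P, a i = v).card := by
      apply Finset.card_le_card_of_injOn
        (fun x : κ → ℤˣ => posSet (fun i => w (e i)) (fun i => x (e i)))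
      · intro x hx
        have hx' := Finset.mem_filter.mp (Finset.mem_coe.mp hx)
        have hxc : sdot x w = c := by
          have := hx'.1
          rw [hS] at this
          exact (Finset.mem_filter.mp this).2
        have hxy : g x = y := hx'.2
        have hdec : sdot x w = sdot (fun i => x (e i)) (fun i => w (e i)) + s := by
          show ∑ j, ((x j : ℤ) : ℝ) * w j
            = ∑ i, ((x (e i) : ℤ) : ℝ) * w (e i) + s
          rw [← Finset.sum_add_sum_compl J, hJsum, hs]
          congr 1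
          refine Finset.sum_congr rfl fun j hj => ?_
          have hj' : j ∉ J := Finset.mem_compl.mp hj
          rw [← hxy, hgout x j hj']
        have hse := sdot_eq (fun i => w (e i)) (fun i => x (e i))
        simp only [ha] at hse
        refine Finset.mem_coe.mpr (Finset.mem_filter.mpr ⟨Finset.mem_univ _, ?_⟩)
        rw [hv]
        linarith
      · intro x hx x' hx' hpos
        have hx1 := Finset.mem_filter.mp (Finset.mem_coe.mp hx)
        have hx1' := Finset.mem_filter.mp (Finset.mem_coe.mp hx')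
        have hinj := posSet_injective (fun i => w (e i)) hw hpos
        funext j
        by_cases hj : j ∈ J
        · obtain ⟨i, rfl⟩ := hJmem j hj
          exact congrFun hinj i
        · rw [← hgout x j hj, ← hgout x' j hj, hx1.2, hx1'.2]
    exact_mod_cast hle
  calc (S.card : ℝ) = ∑ y ∈ Y, ((S.filter fun x => g x = y).card : ℝ) := by
        rw [h1]
        push_cast
        rfl
    _ ≤ ∑ _y ∈ Y, B := Finset.sum_le_sum h2
    _ = 2 ^ (Fintype.card κ - D) * B := by
        rw [Finset.sum_const, nsmul_eq_mul, hYcard]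
        push_cast
        rfl

theorem ss_row_of
    (h : ∃ C : ℝ, 0 < C ∧ ∀ (n : ℕ) (a : Fin n → ℝ), (∀ i, 0 < a i) →
      StrictMono a → ∀ x : ℝ,
      (((univ : Finset (Finset (Fin n))).filter fun S => ∑ i ∈ S, a i = x).card : ℝ) *
        ((n : ℝ) * Real.sqrt n) ≤ C * 2 ^ n) :
    ∃ C : ℝ, 0 < C ∧ ∀ (κ : Type) [Fintype κ] [DecidableEq κ] (w : κ → ℝ) (c : ℝ)
      (D : ℕ), D ≤ dabs w →
      ((univ.filter fun x : κ → ℤˣ => sdot x w = c).card : ℝ) * ((D : ℝ) * Real.sqrt (D : ℝ)) ≤
        C * 2 ^ Fintype.card κ := by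
  classical
  obtain ⟨C, hC, hss⟩ := h
  refine ⟨C, hC, ?_⟩
  intro κ _ _ w c D hD
  rcases Nat.eq_zero_or_pos D with hD0 | hDpos
  · rw [hD0]
    simp only [Nat.cast_zero, zero_mul, mul_zero]
    positivity
  -- choose D distinct nonzero absolute values
  have hD' : D ≤ ((univ.filter fun j => w j ≠ 0).image fun j => |w j|).card := hD
  obtain ⟨T, hTsub, hTcard⟩ := Finset.exists_subset_card_eq hD'
  obtain ⟨a, hadef⟩ : ∃ a : Fin D → ℝ, a = fun i => T.orderEmbOfFin hTcard i := ⟨_, rfl⟩
  have hamono : StrictMono a := by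
    rw [hadef]
    exact (T.orderEmbOfFin hTcard).strictMono
  have hamem : ∀ i, ∃ j, w j ≠ 0 ∧ |w j| = a i := by
    intro i
    have h1 : a i ∈ T := by
      rw [hadef]
      exact Finset.orderEmbOfFin_mem T hTcard i
    obtain ⟨j, hj, hj2⟩ := Finset.mem_image.mp (hTsub h1)
    exact ⟨j, (Finset.mem_filter.mp hj).2, hj2⟩
  choose e he1 he2 using hamem
  have hapos : ∀ i, 0 < a i := fun i => by
    rw [← he2 i]
    exact abs_pos.mpr (he1 i)
  have heinj : Function.Injective e := by
    intro i i' hii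
    apply hamono.injective
    rw [← he2 i, ← he2 i', hii]
  have hDκ : D ≤ Fintype.card κ := by
    have := Fintype.card_le_of_injective e heinj
    rwa [Fintype.card_fin] at this
  have hDr : (0 : ℝ) < (D : ℝ) * Real.sqrt (D : ℝ) := by
    have h1 : (0 : ℝ) < D := by exact_mod_cast hDpos
    exact mul_pos h1 (Real.sqrt_pos.mpr h1)
  have hB : ∀ v : ℝ,
      (((univ : Finset (Finset (Fin D))).filter fun S => ∑ i ∈ S, a i = v).card : ℝ)
        ≤ C * 2 ^ D / ((D : ℝ) * Real.sqrt (D : ℝ)) := by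
    intro v
    rw [le_div_iff₀ hDr]
    exact hss D a hapos hamono v
  have hcore := ss_core w c D a e heinj he1 he2 _ hB
  calc ((univ.filter fun x : κ → ℤˣ => sdot x w = c).card : ℝ) * ((D : ℝ) * Real.sqrt (D : ℝ))
      ≤ (2 ^ (Fintype.card κ - D) * (C * 2 ^ D / ((D : ℝ) * Real.sqrt (D : ℝ))))
          * ((D : ℝ) * Real.sqrt (D : ℝ)) := mul_le_mul_of_nonneg_right hcore hDr.le
    _ = C * (2 ^ (Fintype.card κ - D) * 2 ^ D) := by
        field_simp
    _ = C * 2 ^ Fintype.card κ := by
        rw [← pow_add, Nat.sub_add_cancel hDκ]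

end Vale.Agent.Lib.P160.H5
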